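import Mathlib
import Vale.Agent.P078.StatementDefs
import Vale.Agent.P078.Type3.Step.All
import Vale.Agent.P078.Type3.Bridge
import Vale.Agent.P078.Type3.Reduce

/-!
Every maximal abelian subalgebra of every von Neumann algebra has the strong-operator paving
property, with `O(ε⁻²)` pieces.
-/

noncomputable section

open Vale.Agent.P078

namespace Vale.Agent.Results.P078.SoPavingAllMasas

universe u

theorem result :
    ∃ C : ℝ, ∀ ε : ℝ, 0 < ε → ε < 1 → ∃ r : ℕ, (r : ℝ) ≤ C / ε ^ 2 ∧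
    ∀ (H : Type u) [NormedAddCommGroup H] [InnerProductSpace ℂ H] [CompleteSpace H]
      (M : VonNeumannAlgebra H) (A : StarSubalgebra ℂ (H →L[ℂ] H)),
      IsMASA M A → ∀ x ∈ M, IsSelfAdjoint x → SoPavable M A x ε r := by
  refine ⟨10 ^ 11 * 32 ^ 2 + 17, fun ε h0 h1 =>
    ⟨max (T3.pieces3 (ε / 2)) ⌈16 / ε⌉₊, ?_, ?_⟩⟩
  · have e1 : (T3.pieces3 (ε / 2) : ℝ) ≤ 10 ^ 11 * 32 ^ 2 / ε ^ 2 := by
      refine (T3.pieces3_le (by positivity) (by linarith)).trans_eq ?_
      rw [div_pow, div_div_eq_mul_div, show (32 : ℝ) ^ 2 = 16 ^ 2 * 2 ^ 2 by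
        rw [← mul_pow]; norm_num, mul_assoc]
    have e2 : (⌈16 / ε⌉₊ : ℝ) ≤ 17 / ε ^ 2 := by
      refine (Nat.ceil_lt_add_one (by positivity)).le.trans ?_
      have h2 : ε ^ 2 ≤ ε := pow_le_of_le_one h0.le h1.le (by norm_num)
      calc 16 / ε + 1 ≤ 17 / ε := by rw [div_add_one h0.ne']; gcongr; linarith
        _ ≤ 17 / ε ^ 2 := by gcongr
    rw [Nat.cast_max, add_div]
    exact max_le (le_trans e1 (le_add_of_nonneg_right (by positivity)))
      (le_trans e2 (le_add_of_nonneg_left (by positivity)))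
  · intro H _ _ _ M A hA x hxM hx
    have hr : 0 < T3.pieces3 (ε / 2) :=
      (T3.Params.ofEps_ok (ε := ε / 2 / 16) (by positivity) (by linarith)).1.r_pos
    refine soPavable_reduce h0 (le_max_left _ _)
      ((Nat.le_ceil _).trans (Nat.cast_le.2 (le_max_right _ _))) ?_ M A hA x hxM hx
    exact T3.soPavable_of_smasa (fun N _ _ _ Ω _ _ _ T y hy =>
      T3.SMasa.pavable_of_step T.stepAll (by positivity) (by linarith) hy) hr

end Vale.Agent.Results.P078.SoPavingAllMasas
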