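import Mathlib
import Vale.Agent.P078.StatementDefs
import Vale.Agent.P078.SingDefs
import Vale.Agent.P078.SingMain

/-!
Strong-operator paving with `O(1/ε)` pieces for every maximal abelian subalgebra, in an arbitrary
von Neumann algebra, that centralises no nonzero normal positive functional.
-/

noncomputable section

open Vale.Agent.P078

namespace Vale.Agent.Results.P078.SoPavingNoCentralFunctional

universe u

theorem result : ∃ C : ℝ, ∀ ε : ℝ, 0 < ε → ε < 1 → ∃ r : ℕ, (r : ℝ) ≤ C / ε ∧
    ∀ (H : Type u) [NormedAddCommGroup H] [InnerProductSpace ℂ H] [CompleteSpace H]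
      (M : VonNeumannAlgebra H) (A : StarSubalgebra ℂ (H →L[ℂ] H)),
      IsMASA M A → ¬ HasCentralNormalFunctional M A →
        ∀ x ∈ M, IsSelfAdjoint x → SoPavable M A x ε r := by
  refine ⟨5, fun ε h0 h1 => ⟨⌈4 / ε⌉₊, ?_, ?_⟩⟩
  · refine (Nat.ceil_lt_add_one (by positivity)).le.trans ?_
    rw [div_add_one h0.ne']
    gcongr
    linarith
  · intro H _ _ _ M A hA hno x hxM hx
    exact Sing.soPavable_of_noCentral hA hno hxM hx h0 (Nat.le_ceil _)

end Vale.Agent.Results.P078.SoPavingNoCentralFunctional
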